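import Vale.Agent.P011N.Cl.Spec
import Vale.Agent.P011N.Iface2
import Vale.Agent.P011.E6.Defs

/-!
The classification of the anisotropic forms of types `D₄` and `E₆`: interfaces.
-/

namespace Vale.Agent.P011N.Cl

open Vale.Agent.P011.MPQ Vale.Agent.P011.D4 Vale.Agent.P011.D4.Oct Vale.Agent.P011.E6 Equiv

/-- The automorphisms of a field of characteristic zero. -/
abbrev Gl (F : Type) [Field F] [CharZero F] : Type := F ≃ₐ[ℚ] F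

section general

variable {F F' V V' : Type} [Field F] [CharZero F] [Field F'] [CharZero F'] [AddCommGroup V]
  [Module F V] [AddCommGroup V'] [Module F' V']

/-- The group `Φ` consists of semilinear maps, and its image in the automorphisms is `Γ`. -/
structure Over (Γ : Subgroup (Gl F)) (Φ : Subgroup (Perm V)) : Prop where
  semi : ∀ φ ∈ Φ, ∃ γ ∈ Γ, Semi γ φ
  onto : ∀ γ ∈ Γ, ∃ φ ∈ Φ, Semi γ φ

/-- The element is fixed by `Γ`. -/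
def Fx (Γ : Subgroup (Gl F)) (a : F) : Prop := ∀ γ ∈ Γ, γ a = a

/-- The element is negative at all real places of the field fixed by `Γ`. -/
def TotNeg (Γ : Subgroup (Gl F)) (a : F) : Prop :=
  ∀ w : F →+* ℂ, (∀ x, Fx Γ x → (w x).im = 0) → (w a).re < 0

/-- An extension of the field with a group which extends `Γ`. -/
structure Ext (ι : F →+* F') (Γ : Subgroup (Gl F)) (Γ' : Subgroup (Gl F')) : Prop where
  down : ∀ γ' ∈ Γ', ∃ γ ∈ Γ, ∀ x, γ' (ι x) = ι (γ x)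
  up : ∀ γ ∈ Γ, ∃ γ' ∈ Γ', ∀ x, γ' (ι x) = ι (γ x)
  fix : ∀ y : F', (∀ γ' ∈ Γ', (∀ x, γ' (ι x) = ι x) → γ' y = y) → y ∈ Set.range ι

/-- The map `j` identifies `V'` with the extension of scalars of `V`. -/
structure BC (ι : F →+* F') (j : V → V') : Prop where
  add : ∀ x y, j (x + y) = j x + j y
  smul : ∀ (t : F) x, j (t • x) = ι t • j x
  bas : ∃ (n : ℕ) (b : Module.Basis (Fin n) F V) (b' : Module.Basis (Fin n) F' V'),
    ∀ i, b' i = j (b i)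

/-- The elements of the extension of `Φ`, saturated by `Z'`. -/
def IsLift (j : V → V') (Γ' : Subgroup (Gl F')) (Φ : Subgroup (Perm V)) (Z' : Subgroup (Perm V'))
    (φ' : Perm V') : Prop :=
  (∃ γ' ∈ Γ', Semi γ' φ') ∧ ∃ φ ∈ Φ, ∃ z ∈ Z', ∀ x, φ' (j x) = z (j (φ x))

/-- The element is unipotent. -/
def Unip (g : Perm V) : Prop := ∃ n : ℕ, ∀ x, (fun y => g y - y)^[n] x = 0

/-- An isomorphism of groups of bijections which preserves the unipotent elements. -/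
def UIso (G : Subgroup (Perm V)) (G' : Subgroup (Perm V')) : Prop :=
  ∃ e : G ≃* G', ∀ g : G, Unip g.1 ↔ Unip (e g).1

end general

section oct

variable {F F' : Type} [Field F] [Field F']

/-- A map of the fields, applied to the coefficients of a quaternion. -/
def jQ (ι : F → F') {A B : Fˣ} {A' B' : F'ˣ} (x : Qt A B) : Qt A' B' :=
  ⟨ι x.re, ι x.imI, ι x.imJ, ι x.imK⟩

/-- A map of the fields, applied to the coefficients of an octonion. -/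
def jO (ι : F → F') {A B C : Fˣ} {A' B' C' : F'ˣ} (x : Oct A B C) : Oct A' B' C' :=
  ⟨jQ ι x.fst, jQ ι x.snd⟩

/-- A map of the fields, applied to the coefficients of a hermitian matrix. -/
def jA (ι : F → F') {A B C : Fˣ} {A' B' C' : F'ˣ} (x : Alb A B C) : Alb A' B' C' :=
  ⟨ι x.d1, ι x.d2, ι x.d3, jO ι x.x1, jO ι x.x2, jO ι x.x3⟩

/-! ### Type `D₄` -/

/-- The sum of the three representations of dimension eight. -/
abbrev V4 (A B C : Fˣ) : Type := Fin 3 → Oct A B C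

variable {A B C A' B' C' : Fˣ}

/-- The trilinear form. -/
def tau (x : V4 A B C) : F := bil (x 0 * x 1 * x 2) 1

/-- A semilinear similitude which permutes the three summands. -/
structure Sim4 (γ : F → F) (π : Perm (Fin 3)) (μ : Fin 3 → F) (ν : F)
    (φ : V4 A B C → V4 A' B' C') : Prop where
  semi : Semi γ φ
  nrm : ∀ x i, norm (φ x (π i)) = μ i * γ (norm (x i))
  tri : ∀ x, tau (φ x) = ν * γ (tau x)
  ne : ∀ i, μ i ≠ 0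
  ne' : ν ≠ 0

/-- The spin group of the norm form. -/
def S4 (A B C : Fˣ) : Subgroup (Perm (V4 A B C)) :=
  Subgroup.closure {g | Sim4 id 1 1 1 (g : V4 A B C → V4 A B C)}

/-- The scalars on the three summands. -/
def Z4 (A B C : Fˣ) : Subgroup (Perm (V4 A B C)) :=
  Subgroup.closure {z | ∃ l : Fin 3 → F, ∀ x i, z x i = l i • x i}

/-- The standard semilinear map of an automorphism and a permutation. -/
def st4 (γ : F → F) (π : Perm (Fin 3)) (x : V4 A B C) : V4 A B C :=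
  fun i => if Perm.sign π = 1 then jO γ (x (π⁻¹ i)) else star (jO γ (x (π⁻¹ i)))

/-- A saturated descent datum of type `D₄`. -/
structure Dat4 [CharZero F] (Γ : Subgroup (Gl F)) (Φ : Subgroup (Perm (V4 A B C))) : Prop where
  ov : Over Γ Φ
  sim : ∀ φ ∈ Φ, ∃ γ ∈ Γ, ∃ π μ ν, Sim4 γ π μ ν φ
  lin : ∀ φ ∈ Φ, Semi (id : F → F) φ → φ ∈ Z4 A B C
  sat : Z4 A B C ≤ Φ

/-- There are lines in the three summands which are permuted by `Φ`. -/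
def Line4 (Φ : Subgroup (Perm (V4 A B C))) : Prop :=
  ∃ x : V4 A B C, (∀ i, x i ≠ 0) ∧ ∀ φ ∈ Φ, ∀ γ π μ ν, Sim4 γ π μ ν φ →
    ∀ i, ∃ c : F, φ (Pi.single i (x i)) = c • Pi.single (π i) (x (π i))

/-! ### Type `E₆` -/

/-- The sum of the two representations of dimension twenty-seven. -/
abbrev V6 (A B C : Fˣ) : Type := Alb A B C × Alb A B C

/-- A semilinear similitude which preserves (`ε = false`) or exchanges the two summands. -/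
structure Sim6 (γ : F → F) (ε : Bool) (ν₁ ν₂ l : F) (φ : V6 A B C → V6 A' B' C') : Prop where
  semi : Semi γ φ
  c1 : ∀ x, Alb.cub (φ x).1 = ν₁ * γ (Alb.cub (if ε then x.2 else x.1))
  c2 : ∀ x, Alb.cub (φ x).2 = ν₂ * γ (Alb.cub (if ε then x.1 else x.2))
  tf : ∀ x, Alb.tf (φ x).1 (φ x).2 = l * γ (Alb.tf x.1 x.2)
  ne : ν₁ ≠ 0 ∧ ν₂ ≠ 0 ∧ l ≠ 0

/-- The group of the cubic norm. -/
def S6 (A B C : Fˣ) : Subgroup (Perm (V6 A B C)) :=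
  Subgroup.closure {g | Sim6 id false 1 1 1 (g : V6 A B C → V6 A B C)}

/-- The scalars on the two summands. -/
def Z6 (A B C : Fˣ) : Subgroup (Perm (V6 A B C)) :=
  Subgroup.closure {z | ∃ l₁ l₂ : F, ∀ x, z x = (l₁ • x.1, l₂ • x.2)}

/-- A saturated descent datum of type `E₆`. -/
structure Dat6 [CharZero F] (Γ : Subgroup (Gl F)) (Φ : Subgroup (Perm (V6 A B C))) : Prop where
  ov : Over Γ Φ
  sim : ∀ φ ∈ Φ, ∃ γ ∈ Γ, ∃ ε ν₁ ν₂ l, Sim6 γ ε ν₁ ν₂ l φ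
  lin : ∀ φ ∈ Φ, Semi (id : F → F) φ → φ ∈ Z6 A B C
  sat : Z6 A B C ≤ Φ

/-- The semilinear map `x ↦ e u γ(x) uᵗ`. -/
def ph6 (γ : F → F) (e : F) (x : Alb A B C) : Alb A B C :=
  ⟨e⁻¹ * γ x.d3, e * γ x.d1, e * γ x.d2, e • jO γ x.x3, jO γ x.x1, jO γ x.x2⟩

end oct

/-! ### The blocks -/

/-- (T) Every polynomial splits in an extension. -/
def ExtStmt : Prop :=
  ∀ (F : Type) [Field F] [NumberField F] (Γ : Subgroup (Gl F)) (p : Polynomial F),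
    ∃ (F' : Type) (_ : Field F') (_ : NumberField F') (ι : F →+* F') (Γ' : Subgroup (Gl F')),
      Ext ι Γ Γ' ∧ (p.map ι).Splits

/-- (K2) The Tits algebra of exponent two is split by a quadratic extension of the ground field. -/
def K2Stmt : Prop :=
  ∀ (F : Type) [Field F] [NumberField F] (Γ Γ₀ : Subgroup (Gl F)), Γ₀ ≤ Γ →
    Γ₀.relIndex Γ ≤ 3 → ∀ (W : Type) [AddCommGroup W] [Module F W] [FiniteDimensional F W]
    (Ψ : Subgroup (Perm W)), Over Γ₀ Ψ →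
    (∀ ψ ∈ Ψ, Semi (id : F → F) ψ → ∃ c : F, ∀ x, ψ x = c • x) →
    ∀ θ : W →ₗ[F] W →ₗ[F] F, θ ≠ 0 →
    (∀ ψ ∈ Ψ, ∀ γ ∈ Γ₀, Semi γ ψ → ∃ ν : F, ∀ x y, θ (ψ x) (ψ y) = ν * γ (θ x y)) →
    ∃ a : F, Fx Γ a ∧ ¬ IsSquare a ∧ TotNeg Γ a ∧
      ∀ (F' : Type) [Field F'] [NumberField F'] (ι : F →+* F') (Γ' : Subgroup (Gl F'))
        (W' : Type) [AddCommGroup W'] [Module F' W'] (j : W → W'), Ext ι Γ₀ Γ' → BC ι j →
        ∀ d : F', d ^ 2 = ι a → ∃ y : W', y ≠ 0 ∧ ∀ (φ' : Perm W'), ∀ γ' ∈ Γ', γ' d = d →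
          Semi γ' φ' → (∃ ψ ∈ Ψ, ∀ x, φ' (j x) = j (ψ x)) → ∃ c : F', φ' y = c • y

/-- (K3) The Tits algebra of exponent three is split by a cyclic cubic extension of the ground
field. -/
def K3Stmt : Prop :=
  ∀ (F : Type) [Field F] [NumberField F] (Γ Γ₀ : Subgroup (Gl F)), Γ₀ ≤ Γ →
    Γ₀.relIndex Γ ≤ 2 → ∀ (W : Type) [AddCommGroup W] [Module F W] [FiniteDimensional F W]
    (Ψ : Subgroup (Perm W)), Over Γ₀ Ψ →
    (∀ ψ ∈ Ψ, Semi (id : F → F) ψ → ∃ c : F, ∀ x, ψ x = c • x) →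
    ∀ θ : W →ₗ[F] W →ₗ[F] W →ₗ[F] F, θ ≠ 0 →
    (∀ ψ ∈ Ψ, ∀ γ ∈ Γ₀, Semi γ ψ →
      ∃ ν : F, ∀ x y z, θ (ψ x) (ψ y) (ψ z) = ν * γ (θ x y z)) →
    ∃ t : F, Fx Γ t ∧ (∀ x : F, x ^ 3 - t * x ^ 2 - (t + 3) * x - 1 ≠ 0) ∧
      ∀ (F' : Type) [Field F'] [NumberField F'] (ι : F →+* F') (Γ' : Subgroup (Gl F'))
        (W' : Type) [AddCommGroup W'] [Module F' W'] (j : W → W'), Ext ι Γ₀ Γ' → BC ι j →
        ∀ u : F', u ^ 3 - ι t * u ^ 2 - (ι t + 3) * u - 1 = 0 →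
          ∃ y : W', y ≠ 0 ∧ ∀ (φ' : Perm W'), ∀ γ' ∈ Γ', γ' u = u →
          Semi γ' φ' → (∃ ψ ∈ Ψ, ∀ x, φ' (j x) = j (ψ x)) → ∃ c : F', φ' y = c • y

/-- (R1) Twisted compositions over number fields come from octonion algebras. -/
def R1Stmt : Prop :=
  ∀ (F : Type) [Field F] [NumberField F] (Γ : Subgroup (Gl F))
    (Φ : Subgroup (Perm (V4 (1 : Fˣ) 1 1))), Dat4 Γ Φ → Line4 Φ →
    ∃ a b c : Fˣ, Fx Γ (a : F) ∧ Fx Γ (b : F) ∧ Fx Γ (c : F) ∧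
      ∃ ψ : V4 a b c ≃ V4 (1 : Fˣ) 1 1, (∃ μ ν, Sim4 id 1 μ ν ψ) ∧
        ∀ φ ∈ Φ, ∀ γ ∈ Γ, ∀ π μ ν, Sim4 γ π μ ν φ →
          ∃ z ∈ Z4 a b c, ∀ x, φ (ψ x) = ψ (z (st4 γ π x))

/-- (P) Opposite extremal elements: `s` is a simple Lie algebra of endomorphisms which is normalized
by `Φ`, the pair `X`, `Y` is defined over the quadratic extension generated by `d`, and `S` contains
the exponentials. After a conjugation by an element of `S` which is defined over the quadratic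
extension, the other elements of `Φ` exchange the lines of `X` and `Y`. -/
def PStmt : Prop :=
  ∀ (F : Type) [Field F] [NumberField F] (V : Type) [AddCommGroup V] [Module F V]
    [FiniteDimensional F V] (s : Submodule F (Module.End F V)),
    (∀ Y ∈ s, ∀ Z ∈ s, Y * Z - Z * Y ∈ s) →
    (∀ U : Submodule F (Module.End F V), U ≤ s → U ≠ ⊥ →
      (∀ Y ∈ s, ∀ Z ∈ U, Y * Z - Z * Y ∈ U) → s ≤ U) →
    ∀ (Γ : Subgroup (Gl F)) (Φ S : Subgroup (Perm V)) (d : F), Over Γ Φ → d ≠ 0 →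
    (∀ γ ∈ Γ, γ d = d ∨ γ d = -d) →
    (∀ φ ∈ Φ, ∀ Y ∈ s, ∃ Z ∈ s, ∀ v, φ (Y v) = Z (φ v)) →
    (∀ φ ∈ Φ, Semi (id : F → F) φ → ∀ Y ∈ s, ∀ v, φ (Y v) = Y (φ v)) →
    (∀ Y ∈ s, Y ^ 3 = 0 → ∃ g ∈ S, ∀ v, g v = v + Y v + (2 : F)⁻¹ • Y (Y v)) →
    ∀ X ∈ s, ∀ Y ∈ s, X ≠ 0 → X * X = 0 → Y * Y = 0 → X * Y * X = X → Y * X * Y = Y →
    (∀ Z ∈ s, ∃ c : F, X * Z * X = c • X) → (∀ Z ∈ s, ∃ c : F, Y * Z * Y = c • Y) →
    (∀ φ ∈ Φ, ∀ γ ∈ Γ, Semi γ φ → γ d = d →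
      ∀ v, φ (X v) = X (φ v) ∧ φ (Y v) = Y (φ v)) →
    ∃ g ∈ S, (∀ φ ∈ Φ, ∀ γ ∈ Γ, Semi γ φ → γ d = d → φ * g = g * φ) ∧
      ∀ φ ∈ Φ, ∀ γ ∈ Γ, Semi γ φ → γ d = -d → ∃ c : F, c ≠ 0 ∧
        ∀ v, (g⁻¹ * φ * g) (X v) = c • Y ((g⁻¹ * φ * g) v) ∧
          c • (g⁻¹ * φ * g) (Y v) = X ((g⁻¹ * φ * g) v)

/-- (EI) Inner forms of type `E₆`: `Γ₁` is `Γ` or a normal subgroup of index three, and the
elements over `Γ₁` have a common stable line. -/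
def EIStmt : Prop :=
  ∀ (F : Type) [Field F] [NumberField F] (Γ Γ₁ : Subgroup (Gl F))
    (Φ : Subgroup (Perm (V6 (1 : Fˣ) 1 1))), Dat6 Γ Φ →
    (∀ φ ∈ Φ, ∀ x, (φ (x, 0)).2 = 0) → Γ₁ ≤ Γ →
    (∃ y : Alb (1 : Fˣ) 1 1, y ≠ 0 ∧
      ∀ φ ∈ Φ, ∀ γ ∈ Γ₁, Semi γ φ → ∃ c : F, φ (y, 0) = c • (y, 0)) →
    ∀ r ∈ Γ, (∀ γ ∈ Γ₁, r * γ * r⁻¹ ∈ Γ₁) → r ^ 3 ∈ Γ₁ →
    (∀ γ ∈ Γ, γ ∈ Γ₁ ∨ r⁻¹ * γ ∈ Γ₁ ∨ r * γ ∈ Γ₁) →
    ∃ a b c : Fˣ, Fx Γ (a : F) ∧ Fx Γ (b : F) ∧ Fx Γ (c : F) ∧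
      ∃ ψ : V6 a b c ≃ V6 (1 : Fˣ) 1 1, (∃ ν₁ ν₂ l, Sim6 id false ν₁ ν₂ l ψ) ∧
        (∀ φ ∈ Φ, ∀ γ ∈ Γ₁, Semi γ φ →
          ∃ l : F, ∀ x, φ (ψ (x, 0)) = ψ (l • jA γ x, 0)) ∧
        (r ∉ Γ₁ → ∃ e : F, e ≠ 0 ∧ Fx Γ e ∧ ∀ φ ∈ Φ, Semi r φ →
          ∃ l : F, ∀ x, φ (ψ (x, 0)) = ψ (l • ph6 r e x, 0))

/-- The theorem for the trialitarian groups. -/
def Thm4 : Prop :=
  ∀ (F : Type) [Field F] [NumberField F] (Γ : Subgroup (Gl F))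
    (Φ : Subgroup (Perm (V4 (1 : Fˣ) 1 1))), Dat4 Γ Φ → Trial Φ → Ani (Pts (S4 1 1 1) Φ) →
    Simp (Pts (S4 (1 : Fˣ) 1 1) Φ)

/-- The theorem for the inner forms of type `E₆`. -/
def Thm6I : Prop :=
  ∀ (F : Type) [Field F] [NumberField F] (Γ : Subgroup (Gl F))
    (Φ : Subgroup (Perm (V6 (1 : Fˣ) 1 1))), Dat6 Γ Φ → (∀ φ ∈ Φ, ∀ x, (φ (x, 0)).2 = 0) →
    Ani (Pts (S6 1 1 1) Φ) → Simp (Pts (S6 (1 : Fˣ) 1 1) Φ)

/-- The theorem for the outer forms of type `E₆`. -/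
def Thm6O : Prop :=
  ∀ (F : Type) [Field F] [NumberField F] (Γ : Subgroup (Gl F))
    (Φ : Subgroup (Perm (V6 (1 : Fˣ) 1 1))), Dat6 Γ Φ → (∃ φ ∈ Φ, ∃ x, (φ (x, 0)).2 ≠ 0) →
    Ani (Pts (S6 1 1 1) Φ) → Simp (Pts (S6 (1 : Fˣ) 1 1) Φ)

/-- (N4) From the normalizer to the similitudes. -/
def N4Stmt : Prop :=
  ∀ (F : Type) [Field F] [NumberField F]
    (Φ : Subgroup (Perm (Fin 3 → Vale.Agent.P011.H900.Oc (1 : F) 1))), Form F (Spin F) Φ →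
    ∃ (Γ : Subgroup (Gl F)) (Φ' : Subgroup (Perm (V4 (1 : Fˣ) 1 1))), Dat4 Γ Φ' ∧
      (Trial Φ → Trial Φ') ∧ UIso (Pts (Spin F) Φ) (Pts (S4 1 1 1) Φ')

/-- (N6) From the normalizer to the similitudes. -/
def N6Stmt : Prop :=
  ∀ (F : Type) [Field F] [NumberField F]
    (Φ : Subgroup (Perm (Vale.Agent.P011.H900.Al (1 : F) 1 × Vale.Agent.P011.H900.Al (1 : F) 1))),
    Form F (E6 F) Φ → ∃ (Γ : Subgroup (Gl F)) (Φ' : Subgroup (Perm (V6 (1 : Fˣ) 1 1))),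
      Dat6 Γ Φ' ∧ UIso (Pts (E6 F) Φ) (Pts (S6 1 1 1) Φ')

/-- The outer groups of type `E₆` with trivial Tits class, the octonions being a division algebra
over the ground field. -/
def ClE1S (Φ : ∀ (G : Type) [Group G], Prop) : Prop :=
  ∀ (F : Type) [Field F] [NumberField F] (s : F → F) (a b c : F) (g : Fin 3 → F),
    Vale.Agent.P011.H900.Aut 2 s → Vale.Agent.P011.H900.Dvn [s] [s] a b c → (∀ i, s (g i) = g i) →
    (∀ x : Vale.Agent.P011.H900.Al a b, Vale.Agent.P011.H900.her c s g x x = 0 → x = 0) →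
    Φ (Vale.Agent.P011.H900.grp fun f : Vale.Agent.P011.H900.Al a b → Vale.Agent.P011.H900.Al a b =>
      Vale.Agent.P011.H900.Cub c f ∧ Vale.Agent.P011.H900.Her c s g f)

end Vale.Agent.P011N.Cl
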