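import Vale.Agent.P011N.Cl.T.Semi
import Vale.Agent.P011.H327.Star.Ops

/-!
The classification of the anisotropic forms of type `E₆`: interfaces, second part.
-/

namespace Vale.Agent.P011N.Cl

open Vale.Agent.P011.MPQ Vale.Agent.P011.D4 Vale.Agent.P011.D4.Oct Vale.Agent.P011.E6 Equiv Matrix
open scoped ComplexOrder

section defs

variable {F : Type} [Field F] {A B C A' B' C' : Fˣ}

/-- The inclusion of the first (`ε = false`) or of the second summand. -/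
def inj (ε : Bool) (x : Alb A B C) : V6 A B C := if ε then (0, x) else (x, 0)

/-- The diagonal idempotents. -/
def ee (i : Fin 3) : Alb A B C := ![Alb.e1, Alb.e2, Alb.e3] i

/-- The diagonal entries. -/
def dgA (x : Alb A B C) : Fin 3 → F := ![x.d1, x.d2, x.d3]

/-- The other entries. -/
def odA (x : Alb A B C) : V4 A B C := ![x.x1, x.x2, x.x3]

/-- The matrix with the given entries. -/
def mkA (d : Fin 3 → F) (x : V4 A B C) : Alb A B C := ⟨d 0, d 1, d 2, x 0, x 1, x 2⟩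

/-- The standard semilinear map of an automorphism and a permutation. -/
def st6 (γ : F → F) (π : Perm (Fin 3)) (x : Alb A B C) : Alb A B C :=
  mkA (fun i => γ (dgA x (π⁻¹ i))) (st4 γ π (odA x))

/-- The diagonal similitudes. -/
def tor (l : Fin 3 → F) (x : Alb A B C) : Alb A B C :=
  mkA (fun i => l (i + 1) * l (i + 2) / l i * dgA x i) (fun i => l i • odA x i)

/-- The group permutes the lines of the diagonal idempotents and the lines of the `y i`. -/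
def Frame6 (y : V4 A B C) (Φ : Subgroup (Perm (V6 A B C))) : Prop :=
  ∀ φ ∈ Φ, ∃ (ε : Bool) (π : Perm (Fin 3)),
    (∀ i δ, ∃ c : F, φ (inj δ (ee i)) = c • inj (xor δ ε) (ee (π i))) ∧
    ∀ i, ∃ c : F, φ (inj false (mkA 0 (Pi.single i (y i)))) =
      c • inj ε (mkA 0 (Pi.single (π i) (y (π i))))

/-- The normal form of a map which permutes the lines of the diagonal idempotents. -/
def NF6 (γ : F → F) (ε : Bool) (π : Perm (Fin 3)) (l : Fin 3 → F) (φ : V6 A B C → V6 A B C) :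
    Prop :=
  (∀ i, l i ≠ 0) ∧ ∀ x, φ (x, 0) = inj ε (tor l (st6 γ π x))

/-- The Lie algebra of `S6`. -/
def InS6 (Z : Module.End F (V6 A B C)) : Prop :=
  ∃ Y Y' : Module.End F (Alb A B C), Vale.Agent.P011.H327.Star.Dr Y ∧
    (∀ x y, Alb.tf (Y x) y + Alb.tf x (Y' y) = 0) ∧ ∀ v, Z v = (Y v.1, Y' v.2)

/-- The operator of the pair `x`, `ξ`. -/
def Vop (x ξ : Alb A B C) (v : V6 A B C) : V6 A B C :=
  (Alb.tf ξ v.1 • x - Alb.cross ξ (Alb.cross x v.1),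
    Alb.cross x (Alb.cross ξ v.2) - Alb.tf x v.2 • ξ)

/-- The three elements span a space of elements with adjoint zero. -/
def Sing3 (x : Fin 3 → Alb A B C) : Prop := ∀ i j, Alb.cross (x i) (x j) = 0

/-- The matrix of the cyclic algebra. -/
def uu (e : F) : Matrix (Fin 3) (Fin 3) F := !![0, 0, e; 1, 0, 0; 0, 1, 0]

/-- The form `vᵗ G conj(v)` is definite at the embedding `w`. -/
def Def (w : F → ℂ) (G : Matrix (Fin 3) (Fin 3) F) : Prop :=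
  ∀ v : Fin 3 → ℂ, v ≠ 0 → v ⬝ᵥ (G.map w *ᵥ star v) ≠ 0

end defs

/-! ### Frames -/

/-- (U4) The case of `R1Stmt` where the lines of the units are permuted. -/
def U4Stmt : Prop :=
  ∀ (F : Type) [Field F] [NumberField F] (Γ : Subgroup (Gl F))
    (Φ : Subgroup (Perm (V4 (1 : Fˣ) 1 1))), Dat4 Γ Φ →
    (∀ φ ∈ Φ, ∀ γ π μ ν, Sim4 γ π μ ν φ →
      ∀ i, ∃ c : F, φ (Pi.single i 1) = c • (Pi.single (π i) 1 : V4 (1 : Fˣ) 1 1)) →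
    ∃ a b c : Fˣ, Fx Γ (a : F) ∧ Fx Γ (b : F) ∧ Fx Γ (c : F) ∧
      ∃ f : Oct a b c ≃ₗ[F] Oct (1 : Fˣ) 1 1, (∀ x y, f (x * y) = f x * f y) ∧
        ∀ φ ∈ Φ, ∀ γ ∈ Γ, ∀ π μ ν, Sim4 γ π μ ν φ →
          ∃ z ∈ Z4 a b c, ∀ x, φ (fun i => f (x i)) = fun i => f (z (st4 γ π x) i)

/-- (FL) Frames are conjugate. -/
def FLStmt : Prop :=
  ∀ (F : Type) [Field F] [CharZero F] (x : Fin 3 → Alb (1 : Fˣ) 1 1), (∀ i, Alb.adj (x i) = 0) →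
    Alb.tf (x 0) (Alb.cross (x 1) (x 2)) ≠ 0 →
    ∃ g ∈ S6 (1 : Fˣ) 1 1, ∀ i, (∃ c : F, g (ee i, 0) = c • (x i, 0)) ∧
      ∃ c : F, g (0, ee i) = c • (0, Alb.cross (x (i + 1)) (x (i + 2)))

/-- (FR) The normal form of a group which permutes a frame (from `R1Stmt`). -/
def FRStmt : Prop :=
  ∀ (F : Type) [Field F] [NumberField F] (Γ : Subgroup (Gl F))
    (Φ : Subgroup (Perm (V6 (1 : Fˣ) 1 1))) (y : V4 (1 : Fˣ) 1 1), Dat6 Γ Φ → (∀ i, y i ≠ 0) →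
    Frame6 y Φ → ∃ a b c : Fˣ, Fx Γ (a : F) ∧ Fx Γ (b : F) ∧ Fx Γ (c : F) ∧
      ∃ ψ : V6 a b c ≃ V6 (1 : Fˣ) 1 1, (∃ ν₁ ν₂ l, Sim6 id false ν₁ ν₂ l ψ) ∧
        (∀ i δ, ∃ t : F, ψ (inj δ (ee i)) = t • inj δ (ee i)) ∧
        ∀ φ ∈ tr ψ Φ, ∀ γ ∈ Γ, Semi γ φ → ∃ ε π l, NF6 γ ε π l φ

/-- (FR1) The same when the lines of the units are permuted (from `U4Stmt`). -/
def FR1Stmt : Prop :=
  ∀ (F : Type) [Field F] [NumberField F] (Γ : Subgroup (Gl F))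
    (Φ : Subgroup (Perm (V6 (1 : Fˣ) 1 1))), Dat6 Γ Φ → Frame6 (fun _ => 1) Φ →
    ∃ a b c : Fˣ, Fx Γ (a : F) ∧ Fx Γ (b : F) ∧ Fx Γ (c : F) ∧
      ∃ f : Oct a b c ≃ₗ[F] Oct (1 : Fˣ) 1 1, (∀ x y, f (x * y) = f x * f y) ∧
        ∀ φ ∈ Φ, ∀ γ ∈ Γ, Semi γ φ → ∃ (ε : Bool) (π : Perm (Fin 3)) (l : Fin 3 → F),
          (∀ i, l i ≠ 0) ∧
          ∀ x, φ (Alb.omapA f x, 0) = inj ε (Alb.omapA f (tor l (st6 γ π x)))

/-! ### The models -/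

/-- (UN) An inner form with a stable line of rank one is isotropic. -/
def UNStmt : Prop :=
  ∀ (F : Type) [Field F] [NumberField F] (Γ : Subgroup (Gl F)) (a b c : Fˣ)
    (Φ : Subgroup (Perm (V6 a b c))), Dat6 Γ Φ → ∀ x : Alb a b c, x ≠ 0 → Alb.adj x = 0 →
    (∀ φ ∈ Φ, ∃ t : F, φ (x, 0) = t • (x, 0)) → ¬ Ani (Pts (S6 a b c) Φ)

/-- The elements over the normal subgroup `Γ₁` are standard. -/
structure Std6 {F : Type} [Field F] [CharZero F] (Γ Γ₁ : Subgroup (Gl F)) {a b c : Fˣ}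
    (Φ : Subgroup (Perm (V6 a b c))) : Prop where
  dat : Dat6 Γ Φ
  fx : Fx Γ (a : F) ∧ Fx Γ (b : F) ∧ Fx Γ (c : F)
  le : Γ₁ ≤ Γ
  nm : ∀ γ ∈ Γ, ∀ δ ∈ Γ₁, γ * δ * γ⁻¹ ∈ Γ₁
  std : ∀ φ ∈ Φ, ∀ γ ∈ Γ₁, Semi γ φ → ∃ l : F, ∀ x, φ (x, 0) = (l • jA γ x, 0)

/-- (MD4) The inner model (from `ClE2 Simp` and `UNStmt`). -/
def MD4Stmt : Prop :=
  ∀ (F : Type) [Field F] [NumberField F] (Γ Γ₁ : Subgroup (Gl F)) (a b c : Fˣ)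
    (Φ : Subgroup (Perm (V6 a b c))), Std6 Γ Γ₁ Φ → ∀ r ∈ Γ, r ∉ Γ₁ → r ^ 3 ∈ Γ₁ →
    (∀ γ ∈ Γ, γ ∈ Γ₁ ∨ r⁻¹ * γ ∈ Γ₁ ∨ r * γ ∈ Γ₁) → ∀ e : F, e ≠ 0 → Fx Γ e →
    (∀ φ ∈ Φ, Semi r φ → ∃ l : F, ∀ x, φ (x, 0) = (l • ph6 r e x, 0)) →
    Ani (Pts (S6 a b c) Φ) → Simp (Pts (S6 a b c) Φ)

/-- (MD3) The outer model with trivial Tits class (from `ClE1S Simp`). -/
def MD3Stmt : Prop :=
  ∀ (F : Type) [Field F] [NumberField F] (Γ Γ₁ : Subgroup (Gl F)) (a b c : Fˣ)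
    (Φ : Subgroup (Perm (V6 a b c))), Std6 Γ Γ₁ Φ → ∀ s ∈ Γ, s ∉ Γ₁ →
    (∀ γ ∈ Γ, γ ∈ Γ₁ ∨ s * γ ∈ Γ₁) → ∀ g : Fin 3 → Fˣ, (∀ i, Fx Γ (g i : F)) →
    (∀ φ ∈ Φ, Semi s φ → ∃ l : F, ∀ x, φ (x, 0) = (0, l • Alb.wt g (jA s x))) →
    (∀ w : F →+* ℂ, (∀ x, Fx Γ x → (w x).im = 0) → 0 < (w (g 0 * g 1)).re →
      0 < (w (g 1 * g 2)).re) →
    Ani (Pts (S6 a b c) Φ) → Simp (Pts (S6 a b c) Φ)

/-- (MD5) The outer model with nontrivial Tits class (from `ClE3A Simp`). -/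
def MD5Stmt : Prop :=
  ∀ (F : Type) [Field F] [NumberField F] (Γ Γ₁ : Subgroup (Gl F)) (a b c : Fˣ)
    (Φ : Subgroup (Perm (V6 a b c))), Std6 Γ Γ₁ Φ → ∀ r ∈ Γ, ∀ s ∈ Γ, r ∉ Γ₁ → s ∉ Γ₁ →
    r ^ 3 ∈ Γ₁ → s ^ 2 ∈ Γ₁ → r * s * r⁻¹ * s⁻¹ ∈ Γ₁ →
    (∀ γ ∈ Γ, ∃ i j : ℕ, r ^ i * s ^ j * γ ∈ Γ₁) →
    ∀ (e t : F) (g : Fin 3 → Fˣ), Fx Γ₁ e → r e = e →
    (∀ x, Fx Γ₁ x → x * r x * r (r x) ≠ e) → Fx Γ₁ t → s t = t →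
    (∀ i, Fx Γ₁ (g i : F) ∧ s (g i) = g i) → (g 1 : F) = t * r (g 0) → (g 2 : F) = t * r (g 1) →
    (g 0 : F) = e * s e * t * r (g 2) →
    (∀ φ ∈ Φ, Semi r φ → ∃ l : F, ∀ x, φ (x, 0) = (l • ph6 r e x, 0)) →
    (∀ φ ∈ Φ, Semi s φ → ∃ l : F, ∀ x, φ (x, 0) = (0, l • Alb.wt g (jA s x))) →
    ((∀ x : Alb a b c, (∀ γ ∈ Γ₁, jA γ x = x) → Alb.tf (Alb.wt g x) (jA s x) = 0 → x = 0) ∨
      ∀ y : Oct a b c, (∀ γ ∈ Γ₁, jO γ y = y) → norm y = 0 → y = 0) →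
    Ani (Pts (S6 a b c) Φ) → Simp (Pts (S6 a b c) Φ)

/-! ### Jordan tools -/

/-- (ST) The spaces which are opposite to a given space are conjugate. -/
def STStmt : Prop :=
  ∀ (F : Type) [Field F] [CharZero F] (a b c : Fˣ) (x ξ η : Fin 3 → Alb a b c), Sing3 x →
    Sing3 ξ → Sing3 η → (∀ i j, Alb.tf (x i) (ξ j) = if i = j then 1 else 0) →
    (∀ i j, Alb.tf (x i) (η j) = if i = j then 1 else 0) →
    ∃ g ∈ S6 a b c, ∀ i, g (x i, 0) = (x i, 0) ∧ g (0, ξ i) = (0, η i)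

/-- (P1) Opposite extremal elements. -/
def P1Stmt : Prop :=
  ∀ (F : Type) [Field F] [NumberField F] (a b c : Fˣ) (Γ₀ : Subgroup (Gl F))
    (Φ₀ : Subgroup (Perm (V6 a b c))) (d : F), Dat6 Γ₀ Φ₀ → d ≠ 0 → Fx Γ₀ d →
    ∀ X Y : Module.End F (V6 a b c), InS6 X → InS6 Y → X ≠ 0 → X * X = 0 → Y * Y = 0 →
    X * Y * X = X → Y * X * Y = Y → (∀ Z, InS6 Z → ∃ t : F, X * Z * X = t • X) →
    (∀ φ ∈ Φ₀, ∀ v, φ ((X * Y - Y * X) v) = (X * Y - Y * X) (φ v)) →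
    ∀ (φ : Perm (V6 a b c)) (γ : Gl F) ε ν₁ ν₂ l, Sim6 γ ε ν₁ ν₂ l φ → γ d = -d →
    ∃ g ∈ Pts (S6 a b c) Φ₀, ∃ t : F, t ≠ 0 ∧
      ∀ v, X ((g⁻¹ * φ * g) (X ((g⁻¹ * φ * g)⁻¹ (X v)))) = t • X v

/-! ### Hermitian forms -/

/-- (HI) Indefinite ternary hermitian forms are isotropic. -/
def HIStmt : Prop :=
  ∀ (F : Type) [Field F] [NumberField F] (Γ₁ : Subgroup (Gl F)) (s : Gl F),
    (∀ x, Fx Γ₁ x → Fx Γ₁ (s x) ∧ s (s x) = x) → (∃ x, Fx Γ₁ x ∧ s x ≠ x) →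
    ∀ G : Matrix (Fin 3) (Fin 3) F, (∀ i j, Fx Γ₁ (G i j)) → Gᵀ = G.map s →
    (∀ w : F →+* ℂ, (∀ x, Fx Γ₁ x → w (s x) = star (w x)) → ¬ Def w G) →
    ∃ v : Fin 3 → F, v ≠ 0 ∧ (∀ i, Fx Γ₁ (v i)) ∧ v ⬝ᵥ (G *ᵥ fun i => s (v i)) = 0

/-- (LH) Landherr's theorem for the algebra of the matrices `z` with `z u = u r(z)`, which is the
algebra of all matrices or a cyclic division algebra. -/
def LHStmt : Prop :=
  ∀ (F : Type) [Field F] [NumberField F] (r s : Gl F) (e : F) (u : Matrix (Fin 3) (Fin 3) F),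
    s ≠ 1 → s * s = 1 → r * s = s * r →
    ((r = 1 ∧ u = 1) ∨ (r ≠ 1 ∧ r ^ 3 = 1 ∧ r e = e ∧ (∀ x, x * r x * r (r x) ≠ e) ∧ u = uu e)) →
    ∀ G G' : Matrix (Fin 3) (Fin 3) F, G.det ≠ 0 → G'.det ≠ 0 → Gᵀ = G.map s → G'ᵀ = G'.map s →
    (∃ t : F, uᵀ * G * u.map s = t • G.map r) → (∃ t : F, uᵀ * G' * u.map s = t • G'.map r) →
    (∀ w : F →+* ℂ, (∀ x, w (s x) = star (w x)) → (Def w G ↔ Def w G')) →
    ∃ (z : Matrix (Fin 3) (Fin 3) F) (μ : F), z.det ≠ 0 ∧ z * u = u * z.map r ∧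
      zᵀ * G * z.map s = μ • G'

/-- (WA) Weak approximation: `Γ₀` is the stabilizer of `d` in `Γ`, where `d ^ 2` is totally
negative; an open set is given for every real place of the ground field. -/
def WAStmt : Prop :=
  ∀ (F : Type) [Field F] [NumberField F] (Γ : Subgroup (Gl F)) (d : F) (n : ℕ),
    (∀ γ ∈ Γ, γ d = d ∨ γ d = -d) → TotNeg Γ (d ^ 2) →
    ∀ (S : Set (F →+* ℂ)), (∀ w ∈ S, ∀ x, Fx Γ x → (w x).im = 0) →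
    (∀ w ∈ S, ∀ w' ∈ S, (∀ x, Fx Γ x → w x = w' x) → w = w') →
    ∀ U : (F →+* ℂ) → Set (Fin n → ℂ), (∀ w ∈ S, IsOpen (U w) ∧ (U w).Nonempty) →
    ∃ t : Fin n → F, (∀ i, ∀ γ ∈ Γ, γ d = d → γ (t i) = t i) ∧ ∀ w ∈ S, (fun i => w (t i)) ∈ U w

/-- (RM) Matching of the types of a subspace and of its orthogonal complement. -/
def RMStmt : Prop :=
  ∀ G₁ G₂ : Matrix (Fin 3) (Fin 3) ℂ, G₁.IsHermitian → G₂.IsHermitian →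
    0 < (G₁.det * G₂.det).re → ∃ O : Set (Matrix (Fin 3) (Fin 3) ℂ), IsOpen O ∧ O.Nonempty ∧
      ∀ M ∈ O, (G₁ + Mᵀ * G₂ * M.map star).det ≠ 0 ∧
        ∀ P Q : Matrix (Fin 3) (Fin 3) ℂ, G₁ * P.map star + Mᵀ * G₂ * Q.map star = 0 →
          Q.det ≠ 0 → (Def id (G₁ + Mᵀ * G₂ * M.map star) ↔
            Def id (Pᵀ * G₁ * P.map star + Qᵀ * G₂ * Q.map star))

/-- (RA) The sign of the determinant of a subspace. -/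
def RAStmt : Prop :=
  ∀ (G₁ G₂ : Matrix (Fin 3) (Fin 3) ℂ) (ν : ℝ), G₁.IsHermitian → G₂.IsHermitian → ν ≠ 0 →
    0 < (G₁.det * G₂.det).re → (((ν : ℂ) • G₁).PosDef ∧ ((ν : ℂ) • G₂).PosDef) ∨
      ∃ O : Set (Matrix (Fin 3) (Fin 3) ℂ), IsOpen O ∧ O.Nonempty ∧
        ∀ M ∈ O, ν * (G₁ + Mᵀ * G₂ * M.map star).det.re < 0

end Vale.Agent.P011N.Cl
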