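import Vale.Agent.P011N.Cl.Defs2
import Vale.Agent.P011.E6O.H342.Tits

/-!
The outer forms of type `E₆`: interfaces. The split Albert algebra is written as the sum of three
copies of the matrices of degree three, with the cubic norm
`det X + det Y + det Z - tr (X Y Z)` and the trace form `tr (Y Y') + tr (X Z') + tr (Z X')`.
-/

namespace Vale.Agent.P011N.Cl

open Vale.Agent.P011.MPQ Vale.Agent.P011.D4 Vale.Agent.P011.D4.Oct Vale.Agent.P011.E6 Equiv Matrix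
open Vale.Agent.P011.E6O

/-- The matrices of degree three. -/
abbrev M3 (F : Type) : Type := Matrix (Fin 3) (Fin 3) F

/-- The split Albert algebra. -/
abbrev J1 (F : Type) [Field F] : Type := Alb (1 : Fˣ) 1 1

/-- The sum of the split Albert algebra and of its dual. -/
abbrev W1 (F : Type) [Field F] : Type := V6 (1 : Fˣ) 1 1

section defs

variable {F : Type} [Field F]

/-- The first component. -/
def tX : J1 F →ₗ[F] M3 F := Sl.YY 1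

/-- The second component. -/
def tY : J1 F →ₗ[F] M3 F := Sl.XX 1

/-- The third component. -/
def tZ : J1 F →ₗ[F] M3 F := Sl.ZZ 1

/-- The element with the given components. -/
def mkT (X Y Z : M3 F) : J1 F :=
  ⟨Y 0 0, Y 1 1, Y 2 2,
    ⟨mkq 1 1 1 (Y 1 2) (Y 2 1) (X 1 0) (-Z 0 1), mkq 1 1 1 (X 0 0) (-Z 0 0) (Z 0 2) (X 2 0)⟩,
    ⟨mkq 1 1 1 (Y 2 0) (Y 0 2) (X 1 1) (-Z 1 1), mkq 1 1 1 (X 0 1) (-Z 1 0) (Z 1 2) (X 2 1)⟩,
    ⟨mkq 1 1 1 (Y 0 1) (Y 1 0) (X 1 2) (-Z 2 1), mkq 1 1 1 (X 0 2) (-Z 2 0) (Z 2 2) (X 2 2)⟩⟩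

/-- The matrix `X`, or the transpose of `Z`, with `γ` applied to the entries. -/
def tp (κ : Bool) (γ : F → F) (X Z : M3 F) : M3 F := if κ then (Z.map γ)ᵀ else X.map γ

/-- The normal form of a similitude which permutes the three components. -/
structure TNF (γ : F → F) (ε κ : Bool) (a b c : M3 F) (l : Fin 3 → F) (m : F)
    (φ : W1 F → W1 F) : Prop where
  da : a.det ≠ 0
  db : b.det ≠ 0
  dc : c.det ≠ 0
  ne : ∀ i, l i ≠ 0
  ne' : m ≠ 0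
  fst : ∀ X Y Z, φ (mkT X Y Z, 0) = inj ε (mkT (l 0 • (a * tp κ γ X Z * b⁻¹))
    (l 1 • (b * tp κ γ Y Y * c⁻¹)) (l 2 • (c * tp κ γ Z X * a⁻¹)))
  snd : ∀ X Y Z, φ (0, mkT X Y Z) = inj (!ε) (mkT ((m / l 2) • (a * tp κ γ X Z * c⁻¹))
    ((m / l 1) • (c * tp κ γ Y Y * b⁻¹)) ((m / l 0) • (b * tp κ γ Z X * a⁻¹)))
  r0 : l 0 ^ 2 * a.det = l 1 * l 2 * b.det
  r1 : l 1 ^ 2 * b.det = l 2 * l 0 * c.det
  r2 : l 2 ^ 2 * c.det = l 0 * l 1 * a.det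

/-- The action of the first copy of the Lie algebra of the matrices of trace zero. -/
def slA (δ : M3 F) (v : W1 F) : W1 F :=
  (mkT (δ * tX v.1) 0 (-(tZ v.1 * δ)), mkT (δ * tX v.2) 0 (-(tZ v.2 * δ)))

/-- The map commutes (`κ = false`) or anticommutes with the grading operator. -/
def Cm (κ : Bool) (φ : W1 F → W1 F) : Prop :=
  ∀ v, φ (slA (diagonal ![2, -1, -1]) v) =
    (if κ then (-1 : F) else 1) • slA (diagonal ![2, -1, -1]) (φ v)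

/-- The elements of degree `2`. -/
def pP (β : Fin 3 → F) : J1 F := mkT (vecMulVec (Pi.single 0 1) β) 0 0

/-- The elements of degree `-2`. -/
def pQ (z : Fin 3 → F) : J1 F := mkT 0 0 (vecMulVec z (Pi.single 0 1))

/-- The Gram matrix of the form `tf x (φ y)` on the elements of degree `2`. -/
def gramP (φ : W1 F → W1 F) : M3 F :=
  Matrix.of fun i j => Alb.tf (pP (Pi.single i 1)) (φ (pP (Pi.single j 1), 0)).2

variable [CharZero F]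

/-- The elements over the automorphisms with the property `P` commute or anticommute with the
grading operator. -/
def GrOn (Φ : Subgroup (Perm (W1 F))) (P : Gl F → Prop) (κ : Bool) : Prop :=
  ∀ φ ∈ Φ, ∀ γ : Gl F, Semi γ φ → P γ → Cm κ φ

/-- The group `Φ'` is the transport of `Φ` by a linear similitude. -/
def Mov (Φ Φ' : Subgroup (Perm (W1 F))) : Prop :=
  ∃ (ψ : W1 F ≃ W1 F) (ν₁ ν₂ l : F), Sim6 id false ν₁ ν₂ l ψ ∧ Φ' = tr ψ Φ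

/-- The fields: `K = k(q)`, `k(d)` is totally imaginary, `r` is trivial or generates the group of
a cyclic cubic extension, `e` belongs to `K`. -/
structure OSet (Γ : Subgroup (Gl F)) (r σ θ : Gl F) (d q e : F) (u : M3 F) : Prop where
  gen : ∀ γ, γ ∈ Γ ↔ ∃ i j l : ℕ, γ = r ^ i * σ ^ j * θ ^ l
  σ2 : σ * σ = 1
  θ2 : θ * θ = 1
  rσ : r * σ = σ * r
  rθ : r * θ = θ * r
  σθ : σ * θ = θ * σ
  d0 : d ≠ 0
  q0 : q ≠ 0
  rd : r d = d
  σd : σ d = d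
  θd : θ d = -d
  rq : r q = q
  σq : σ q = -q
  θq : θ q = q
  neg : TotNeg Γ (d ^ 2)
  θe : θ e = e
  cyc : (r = 1 ∧ u = 1) ∨
    (r ≠ 1 ∧ r ^ 3 = 1 ∧ r e = e ∧ (∀ x, x * r x * r (r x) ≠ e) ∧ u = uu e)

/-- The descent datum: the inner elements are those which fix `q`, and `r` acts on the elements of
degree `2` through the matrix `u`. -/
structure Cfg (Γ : Subgroup (Gl F)) (r : Gl F) (q : F) (u : M3 F)
    (Φ : Subgroup (Perm (W1 F))) : Prop where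
  dat : Dat6 Γ Φ
  inn : ∀ φ ∈ Φ, ∀ γ : Gl F, Semi γ φ → ((∀ x, (φ (x, 0)).2 = 0) ↔ γ q = q)
  cyc : ∃ p ∈ Φ, Semi r p ∧ ∀ β, p (pP β, 0) = (pP (u *ᵥ fun i => r (β i)), 0)

/-- The grading is defined over the ground field, up to a sign. -/
def Lv3 (Φ : Subgroup (Perm (W1 F))) (d : F) : Prop :=
  GrOn Φ (fun γ => γ d = d) false ∧ GrOn Φ (fun γ => γ d = -d) true

/-- The types of the form at the two places over a real place agree. -/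
def Matched (Φ : Subgroup (Perm (W1 F))) (σ θ : Gl F) : Prop :=
  ∀ φ ∈ Φ, Semi (⇑(σ * θ)) φ → ∀ w : F →+* ℂ, (∀ x, w ((σ * θ) x) = star (w x)) →
    (Def w (gramP φ) ↔ Def (fun x => w (θ x)) (gramP φ))

/-- The form is anisotropic, or the form on the space `A` is definite at a place which splits
in `K`. -/
def Compact (Φ : Subgroup (Perm (W1 F))) (σ θ : Gl F) : Prop :=
  (∀ φ ∈ Φ, Semi (⇑(σ * θ)) φ → ∀ x, Alb.tf x (φ (x, 0)).2 = 0 → x = 0) ∨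
    ∃ w : F →+* ℂ, (∀ x, w (θ x) = star (w x)) ∧ ∀ φ ∈ Φ, ∀ a b c l m,
      TNF θ false true a b c l m φ → Def w a⁻¹

end defs

/-- (NF) The normal form. -/
def NFStmt : Prop :=
  ∀ (F : Type) [Field F] [CharZero F] (φ : Perm (W1 F)) (γ : Gl F) ε κ ν₁ ν₂ m,
    Sim6 γ ε ν₁ ν₂ m φ → Cm κ φ → ∃ a b c l, TNF γ ε κ a b c l m φ ∧
      l 0 * l 1 * l 2 = (if ε then ν₂ else ν₁) ∧ a 0 1 = 0 ∧ a 0 2 = 0 ∧ a 1 0 = 0 ∧ a 2 0 = 0

/-- (GR) The maps which respect the components of degrees `2` and `-2`; the annihilators. -/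
def GRStmt : Prop :=
  ∀ (F : Type) [Field F] [CharZero F],
    (∀ (φ : Perm (W1 F)) (γ : Gl F) ε ν₁ ν₂ m, Sim6 γ ε ν₁ ν₂ m φ →
      ((∀ β, ∃ β', φ (pP β, 0) = inj ε (pP β')) → (∀ z, ∃ z', φ (0, pQ z) = inj (!ε) (pQ z')) →
        Cm false φ) ∧
      ((∀ β, ∃ z', φ (pP β, 0) = inj ε (pQ z')) → (∀ z, ∃ β', φ (0, pQ z) = inj (!ε) (pP β')) →
        Cm true φ)) ∧
    (∀ ξ : J1 F, (∀ β v, Vop (pP β) ξ v = 0) ↔ ∃ ζ, ξ = pP ζ) ∧
    ∀ x : J1 F, (∀ z v, Vop x (pQ z) v = 0) ↔ ∃ ζ, x = pQ ζ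

/-- (GEN) The grading is defined over a quadratic extension; a conjugate grading is reversed by
the Galois group. -/
def GENStmt : Prop :=
  ∀ (F : Type) [Field F] [NumberField F] (Γ Γ' : Subgroup (Gl F)) (Φ : Subgroup (Perm (W1 F)))
    (d : F), Dat6 Γ Φ → Γ' ≤ Γ → d ≠ 0 → (∀ γ ∈ Γ', γ d = d ∨ γ d = -d) →
    GrOn Φ (fun γ => γ ∈ Γ' ∧ γ d = d) false →
    (∃ φ ∈ Φ, ∃ γ ∈ Γ', Semi γ φ ∧ γ d = -d ∧ ∃ x, (φ (x, 0)).2 ≠ 0) →
    ∀ p ∈ Φ, ∀ r ∈ Γ', Semi r p → r d = d → ∀ T : (Fin 3 → F) → Fin 3 → F,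
    (∀ β, p (pP β, 0) = (pP (T β), 0)) →
    ∃ (ψ : W1 F ≃ W1 F) (ν₁ ν₂ l : F), Sim6 id false ν₁ ν₂ l ψ ∧
      GrOn (tr ψ Φ) (fun γ => γ ∈ Γ' ∧ γ d = d) false ∧
      GrOn (tr ψ Φ) (fun γ => γ ∈ Γ' ∧ γ d = -d) true ∧
      ∃ p' ∈ tr ψ Φ, Semi r p' ∧ ∀ β, p' (pP β, 0) = (pP (T β), 0)

/-- (B2) Over the totally imaginary field there is a rational grading. -/
def B2Stmt : Prop :=
  ∀ (F : Type) [Field F] [NumberField F] (Γ : Subgroup (Gl F)) (r σ θ : Gl F) (d q e : F)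
    (u : M3 F) (Φ : Subgroup (Perm (W1 F))), OSet Γ r σ θ d q e u → Cfg Γ r q u Φ →
    GrOn Φ (fun γ => γ d = d ∧ γ q = q) false → GrOn Φ (fun γ => γ d = d ∧ γ q = -q) true →
    ∃ Φ', Mov Φ Φ' ∧ Cfg Γ r q u Φ' ∧ GrOn Φ' (fun γ => γ d = d) false

/-- (MATCH) The types can be matched. -/
def MatchStmt : Prop :=
  ∀ (F : Type) [Field F] [NumberField F] (Γ : Subgroup (Gl F)) (r σ θ : Gl F) (d q e : F)
    (u : M3 F) (Φ : Subgroup (Perm (W1 F))), OSet Γ r σ θ d q e u → Cfg Γ r q u Φ → Lv3 Φ d →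
    ∃ Φ', Mov Φ Φ' ∧ Cfg Γ r q u Φ' ∧ Lv3 Φ' d ∧ Matched Φ' σ θ

/-- (AUX) The anisotropic groups. -/
def AuxStmt : Prop :=
  ∀ (F : Type) [Field F] [NumberField F] (Γ : Subgroup (Gl F)) (r σ θ : Gl F) (d q e : F)
    (u : M3 F) (Φ : Subgroup (Perm (W1 F))), OSet Γ r σ θ d q e u → Cfg Γ r q u Φ → Lv3 Φ d →
    r ≠ 1 → Ani (Pts (S6 1 1 1) Φ) → Compact Φ σ θ

/-- (FIN) The comparison with the models. -/
def FinStmt : Prop :=
  ∀ (F : Type) [Field F] [NumberField F] (Γ : Subgroup (Gl F)) (r σ θ : Gl F) (d q e : F)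
    (u : M3 F) (Φ : Subgroup (Perm (W1 F))), OSet Γ r σ θ d q e u → Cfg Γ r q u Φ → Lv3 Φ d →
    Matched Φ σ θ → (r ≠ 1 → Compact Φ σ θ) → Ani (Pts (S6 1 1 1) Φ) →
    Simp (Pts (S6 (1 : Fˣ) 1 1) Φ)

/-- (SET) The reduction to the standard setting. -/
def SetStmt : Prop :=
  ∀ (F : Type) [Field F] [NumberField F] (Γ : Subgroup (Gl F)) (Φ : Subgroup (Perm (W1 F))),
    Dat6 Γ Φ → (∃ φ ∈ Φ, ∃ x, (φ (x, 0)).2 ≠ 0) →
    ∃ (F' : Type) (_ : Field F') (_ : NumberField F') (Γ' : Subgroup (Gl F')) (r σ θ : Gl F')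
      (d q e : F') (u : M3 F') (Φ' : Subgroup (Perm (W1 F'))), OSet Γ' r σ θ d q e u ∧
      Cfg Γ' r q u Φ' ∧ GrOn Φ' (fun γ => γ d = d ∧ γ q = q) false ∧
      UIso (Pts (S6 1 1 1) Φ) (Pts (S6 1 1 1) Φ')

end Vale.Agent.P011N.Cl
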