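import Vale.Agent.P011.H900.SpecX

/-!
The forms of the split simply connected groups of types `D₄` and `E₆`, by Galois descent.
-/

namespace Vale.Agent.P011N.Cl

open Vale.Agent.P011.H900

/-- The map `f` is semilinear with respect to `γ`. -/
def Semi {F V W : Type} [Field F] [AddCommGroup V] [Module F V] [AddCommGroup W] [Module F W]
    (γ : F → F) (f : V → W) : Prop :=
  ∀ (t : F) x y, f (t • x + y) = γ t • f x + f y

/-- A descent datum for the group `S` of linear bijections of the vector space `V` over `F`: a
group `Φ` of semilinear bijections of `V` which normalizes `S`, and whose linear elements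
centralize `S`. The ground field `k` is the field fixed by the automorphisms of `F` which belong
to the elements of `Φ`. -/
structure Form (F : Type) {V : Type} [Field F] [AddCommGroup V] [Module F V]
    (S Φ : Subgroup (Equiv.Perm V)) : Prop where
  semi : ∀ φ ∈ Φ, ∃ γ : F → F, Semi γ φ
  norm : ∀ φ ∈ Φ, ∀ g ∈ S, φ * g * φ⁻¹ ∈ S
  cent : ∀ φ ∈ Φ, Semi (id : F → F) φ → ∀ g ∈ S, φ * g = g * φ

/-- The group `G(k)` of the rational points of the form: the centralizer of `Φ` in `S`. -/
def Pts {V : Type} (S Φ : Subgroup (Equiv.Perm V)) : Subgroup (Equiv.Perm V) :=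
  S ⊓ Subgroup.centralizer (Φ : Set (Equiv.Perm V))

/-- The group has no unipotent element besides the identity. -/
def Ani {V : Type} [AddCommGroup V] (G : Subgroup (Equiv.Perm V)) : Prop :=
  ∀ g ∈ G, (∃ n : ℕ, ∀ x, (fun y => g y - y)^[n] x = 0) → g = 1

/-- Every normal subgroup which is not contained in the centre is the whole group. -/
def Simple (G : Type) [Group G] : Prop :=
  ∀ N : Subgroup G, N.Normal → ¬ N ≤ Subgroup.center G → N = ⊤

/-- The split group `Spin₈(F)`, in the sum of its three representations of dimension eight: the
linear bijections of the triples of split octonions which, extended by the identity on the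
diagonal, preserve the cubic norm of the split Albert algebra. -/
def Spin (F : Type) [Field F] : Subgroup (Equiv.Perm (Fin 3 → Oc (1 : F) 1)) :=
  grp fun f => Semi (id : F → F) f ∧ ∀ d x, cub 1 (d, f x) = cub 1 (d, x)

/-- The form is trialitarian: none of the three summands is stable. -/
def Trial {M : Type} [Zero M] (Φ : Subgroup (Equiv.Perm (Fin 3 → M))) : Prop :=
  ∀ i, ∃ φ ∈ Φ, ∃ x j, j ≠ i ∧ φ (Pi.single i x) j ≠ 0

/-- The trace form of the split Albert algebra. -/
def trf {F : Type} [Field F] (x y : Al (1 : F) 1) : F :=
  ∑ i, (x.1 i * y.1 i + 2 * re (om 1 (x.2 i) (oc (y.2 i))))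

/-- The split simply connected group `E₆(F)`, in the sum of its two representations of dimension
twenty-seven: the linear bijections of the pairs of elements of the split Albert algebra which
preserve the cubic norms of the two components and the value of the trace form. -/
def E6 (F : Type) [Field F] : Subgroup (Equiv.Perm (Al (1 : F) 1 × Al (1 : F) 1)) :=
  grp fun f => Semi (id : F → F) f ∧ ∀ x, cub 1 (f x).1 = cub 1 x.1 ∧ cub 1 (f x).2 = cub 1 x.2 ∧
    trf (f x).1 (f x).2 = trf x.1 x.2

end Vale.Agent.P011N.Cl
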