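import Vale.Agent.P011.H925.Full.DefsA
import Vale.Agent.P011N.Cl.Spec

/-!
The hypotheses on the outer forms of type `A`, and the conclusion for the forms of a split group.
-/

namespace Vale.Agent.P011N.Cl

/-- `A` is central simple of degree `n ≥ 3` over `K`, with an anisotropic involution of the second
kind whose fixed field `k` is a global field, i.e. a number field or a finite extension of the
field of rational functions in one variable over a finite field. -/
structure Uni (k K A : Type) [Field k] [Field K] [Algebra k K] [StarRing K] [Ring A]
    [StarRing A] [Algebra K A] (n : ℕ) : Prop where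
  global : NumberField k ∨ ∃ (E : Type) (_ : Field E) (_ : Finite E) (_ : Algebra (RatFunc E) k),
    FiniteDimensional (RatFunc E) k
  fixed : ∀ x : K, star x = x ↔ x ∈ Set.range (algebraMap k K)
  star_ne : ∃ x : K, star x ≠ x
  central : Algebra.IsCentral K A
  simple : IsSimpleRing A
  le : 3 ≤ n
  rank : Module.finrank K A = n ^ 2
  aniso : ∀ x : A, star x * x = 0 → x = 0

/-- For every descent datum `Φ` for `S` with the property `P` such that the group `G(k)` of the
rational points of the form is anisotropic, every noncentral normal subgroup of `G(k)` is `G(k)`. -/
def Forms (F : Type) {V : Type} [Field F] [AddCommGroup V] [Module F V]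
    (S : Subgroup (Equiv.Perm V)) (P : Subgroup (Equiv.Perm V) → Prop) : Prop :=
  ∀ Φ, Form F S Φ → P Φ → Ani (Pts S Φ) → Simple (Pts S Φ)

end Vale.Agent.P011N.Cl
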