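import Vale.Agent.P011N.F.All
import Vale.Agent.P011N.X1.Main
import Vale.Agent.P011N.X2.Fin
import Vale.Agent.P011N.Cl.SpecA
import Vale.Agent.P011N.Cl.D4.Top
import Vale.Agent.P011N.Cl.N6.Main
import Vale.Agent.P011N.Cl.EI.Main
import Vale.Agent.P011N.Cl.MD.Cub
import Vale.Agent.P011N.Cl.MD.M3
import Vale.Agent.P011N.Cl.MD.M4
import Vale.Agent.P011N.Cl.MD.M5
import Vale.Agent.P011N.Cl.O.Main
import Vale.Agent.P011N.Cl.TC.Gen
import Vale.Agent.P011N.Cl.TC.B2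
import Vale.Agent.P011N.Cl.MV.Match
import Vale.Agent.P011N.Cl.AX.Main
import Vale.Agent.P011N.Cl.FIN.Main
import Vale.Agent.P011N.Cl.SET.Main

/-!
The assembly of the blocks.
-/

namespace Vale.Agent.P011N.Cl

open Vale.Agent.P011.H925.Full Vale.Agent.P011.H900

theorem topA {k K A Ω : Type} [Field k] [Field K] [Algebra k K] [StarRing K] [Ring A]
    [StarRing A] [Algebra k A] [Algebra K A] [IsScalarTower k K A] [StarModule K A]
    [Field Ω] [Algebra K Ω] {n : ℕ} (f : A →ₐ[K] Matrix (Fin n) (Fin n) Ω) (h : Uni k K A n) :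
    ∃ δ : GK f →* HA k K A n, (∀ g, Diag g.1.1 (δ g)) ∧ F.MP δ := by
  have h' : AnisA k K A n := ⟨h.fixed, h.star_ne, h.central, h.simple, h.le, h.rank, h.aniso⟩
  rcases h.global with hk | hk
  · obtain ⟨δ, h1, h2⟩ := X1.clauseA_all h' f
    exact ⟨δ, h1, F.mp_of h2 (A1.mfnf k K A Ω n f h').1⟩
  · obtain ⟨δ, h1, h2⟩ := q1_of (st := stLin h.fixed) (fun _ => rfl)
      (old_ffa hk ⟨h.fixed, h.star_ne, h.central, h.simple, h.rank, h.aniso⟩ h.le f)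
    exact ⟨δ, h1, F.mp_of h2 (F.mfff k K A Ω n f hk h')⟩

theorem top6 {L : Type} [Field L] [NumberField L]
    {Φ : Subgroup (Equiv.Perm (Al (1 : L) 1 × Al (1 : L) 1))} (h : Form L (E6 L) Φ)
    (hA : Ani (Pts (E6 L) Φ)) : Simple (Pts (E6 L) Φ) := by
  obtain ⟨Γ, Φ', h1, h2⟩ := N6.n6Stmt L Φ h
  refine simple_of_simp (h2.simp ?_)
  by_cases h3 : ∀ φ ∈ Φ', ∀ x, (φ (x, 0)).2 = 0
  · exact MD.thm6I K.k3 (EI.eiStmt (frStmt R.r1Stmt)) (MD.md4Stmt F.clE2 unStmt) L Γ Φ' h1 h3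
      (h2.ani hA)
  · push Not at h3
    exact O.thm6O (SET.setStmt (EI.eiStmt (frStmt R.r1Stmt))) genStmt B2.b2Stmt MV.matchStmt
      AX.auxStmt (FIN.finStmt (M3.md3Stmt X2.clE1') (MD.md5Stmt F.clE3A)) L Γ Φ' h1 h3
      (h2.ani hA)

end Vale.Agent.P011N.Cl
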